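import Vale.Agent.P014T.Pu.Wk
import Vale.Agent.P014U.Ew.Cmp

/-! # P014U: the pairing of Weil over the algebraic numbers (helper84) -/

set_option linter.all false

open scoped Classical

noncomputable section

namespace Vale.Agent.P014U.Pu

open Vale.Agent.P014U.X4M.TE
open Vale.Agent.P014T.Pu

export Vale.Agent.P014T.Pu (eQ ga_ea eQ_ga)

variable [Pp] {A B : ℤ} (hD : 4 * (A : ℚ) ^ 3 + 27 * (B : ℚ) ^ 2 ≠ 0)

theorem eQ_al : Ew.Al fun n => eQ hD (pp ^ n) :=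
  ⟨fun a b c => eW_add_left _ (pow_ne_zero _ pp_ne) a b c, fun _ _ => eW_skew _ _ _ _,
    fun a => eW_self _ (pow_ne_zero _ pp_ne) a, fun {n x y} a b => by
      rw [pow_succ'] at a
      simp only [pow_succ']
      exact eW_level' _ pp_ne (pow_ne_zero _ pp_ne) a b⟩

theorem eQ_wp : ∃ u : ℤ_[pp]ˣ, ∀ n (x y : Pt A B), pp ^ n • x = 0 → pp ^ n • y = 0 →
    eQ hD (pp ^ n) x y = Ew.X ((u : ℤ_[pp]) * Ki.wp hD n x y) :=
  Ew.cmp hD (eQ_al hD) fun _ a => eW_nondeg _ (Nat.cast_ne_zero.2 (pow_ne_zero _ pp_ne)) a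

end Vale.Agent.P014U.Pu
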